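import Vale.Agent.P269.G1I.All
import Vale.Agent.P269.G1I.H440.QcoSymm
import Vale.Agent.P269.G2I.BSpec1

/-!
# even dimension: parities, the inverse pairing, the symmetry of the second order part
-/

namespace Vale.Agent.P269.G2.H980

open Vale.Agent.P269.CI
open Vale.Agent.P269.H597 (coh Coh)
open Vale.Agent.P269.G1 (qco)

variable {X : CompleteIntersection}

theorem par_even (he : Even X.dim) (a : Ix X) : par X a = false := by
  cases a with
  | inl j => rfl
  | inr v =>
    have : X.dim % 2 = 0 := Nat.even_iff.1 he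
    simp [par, this]

theorem sgn_even (he : Even X.dim) (a b : Ix X) : sgn (par X a) (par X b) = 1 := by
  rw [par_even he, par_even he]
  rfl

theorem pairingInv_symm (he : Even X.dim) (a b : Ix X) :
    pairingInv X a b = pairingInv X b a := by
  have h := (coh X).etai_symm a b
  have h2 : (coh X).sn a = 1 := by
    change H597.sg ℂ (par X a) (par X a) = 1
    rw [par_even he]
    rfl
  rw [h2, one_mul] at h
  exact h

theorem pairingInv_mu {a b : Ix X} (h : pairingInv X a b ≠ 0) : mu X a + mu X b = 0 :=
  (coh X).etai_mu a b h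

theorem c1pow_inr (i : ℕ) (v : X.Prim) (c : Ix X) : c1pow X i (Sum.inr v) c =
    if i = 0 ∧ c = Sum.inr v then 1 else 0 := by
  unfold c1pow
  cases i with
  | zero =>
    rw [pow_zero, Matrix.one_apply]
    simp [eq_comm]
  | succ i =>
    rw [pow_succ', Matrix.mul_apply, if_neg (by omega)]
    refine Finset.sum_eq_zero fun b _ => ?_
    have h : Matrix.of (c1 X) (Sum.inr v) b = 0 := by
      change c1 X (Sum.inr v) b = 0
      simp [c1, hmul]
    rw [h, zero_mul]

theorem sum_qco (K m i : ℕ) (b c : Ix X) :
    ∑ a : Ix X, qco X K m i a b c = match b, c with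
      | Sum.inl b, Sum.inl c => ∑ a : Fin (X.dim + 1), qco X K m i (Sum.inl a) (Sum.inl b)
          (Sum.inl c)
      | Sum.inl _, Sum.inr _ => 0
      | Sum.inr _, Sum.inl _ => 0
      | Sum.inr u, Sum.inr v => if i = 0 then
          (-1) ^ (m + 1) * esym K 0 (mu X (Sum.inr v) - m - 1 / 2) *
            pairingInv X (Sum.inr v) (Sum.inr u) else 0 := by
  rw [Fintype.sum_sum_type]
  rcases b with b | u <;> rcases c with c | v
  · have h : ∑ v : X.Prim, qco X K m i (Sum.inr v) (Sum.inl b) (Sum.inl c) = 0 := by
      refine Finset.sum_eq_zero fun v _ => ?_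
      unfold qco
      have : pairingInv X (Sum.inr v) (Sum.inl b) = 0 := rfl
      rw [this, mul_zero, zero_mul]
    rw [h, add_zero]
  · have h : ∑ w : X.Prim, qco X K m i (Sum.inr w) (Sum.inl b) (Sum.inr v) = 0 := by
      refine Finset.sum_eq_zero fun w _ => ?_
      unfold qco
      have : pairingInv X (Sum.inr w) (Sum.inl b) = 0 := rfl
      rw [this, mul_zero, zero_mul]
    have h2 : ∑ a : Fin (X.dim + 1), qco X K m i (Sum.inl a) (Sum.inl b) (Sum.inr v) = 0 := by
      refine Finset.sum_eq_zero fun a _ => ?_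
      unfold qco
      rw [G1.H440.c1pow_inl]
      simp
    rw [h, h2, add_zero]
  · have h : ∑ a : Fin (X.dim + 1), qco X K m i (Sum.inl a) (Sum.inr u) (Sum.inl c) = 0 := by
      refine Finset.sum_eq_zero fun w _ => ?_
      unfold qco
      have : pairingInv X (Sum.inl w) (Sum.inr u) = 0 := rfl
      rw [this, mul_zero, zero_mul]
    have h2 : ∑ w : X.Prim, qco X K m i (Sum.inr w) (Sum.inr u) (Sum.inl c) = 0 := by
      refine Finset.sum_eq_zero fun a _ => ?_
      unfold qco
      rw [c1pow_inr]
      simp
    rw [h, h2, add_zero]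
  · have h : ∑ a : Fin (X.dim + 1), qco X K m i (Sum.inl a) (Sum.inr u) (Sum.inr v) = 0 := by
      refine Finset.sum_eq_zero fun w _ => ?_
      unfold qco
      have : pairingInv X (Sum.inl w) (Sum.inr u) = 0 := rfl
      rw [this, mul_zero, zero_mul]
    rw [h, zero_add, Finset.sum_eq_single v]
    · unfold qco
      rw [c1pow_inr]
      by_cases hi : i = 0
      · subst hi
        simp
      · simp [hi]
    · intro w _ hw
      unfold qco
      rw [c1pow_inr, if_neg, mul_zero]
      rintro ⟨-, h9⟩
      exact hw (Sum.inr.inj h9).symm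
    · simp

/-- the symmetry of the coefficients under the exchange of the two insertions -/
theorem qco_symm (he : Even X.dim) (K m i : ℕ) (h : m + i + 2 ≤ K) (b c : Ix X) :
    ∑ a : Ix X, qco X K m i a b c = ∑ a : Ix X, qco X K (K - 2 - m - i) i a c b := by
  rw [sum_qco, sum_qco]
  rcases b with b | u <;> rcases c with c | v
  · exact G1.H440.qco_symm K m i h b c
  · rfl
  · rfl
  · by_cases hi : i = 0
    · subst hi
      simp only [if_true]
      obtain ⟨k, rfl⟩ : ∃ k, K = m + 0 + 2 + k := Nat.exists_eq_add_of_le h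
      have e1 : m + 0 + 2 + k - 2 - m - 0 = k := by omega
      rw [e1, pairingInv_symm he (Sum.inr u) (Sum.inr v)]
      by_cases h0 : pairingInv X (Sum.inr v) (Sum.inr u) = 0
      · rw [h0, mul_zero, mul_zero]
      · have h5 := pairingInv_mu h0
        have e2 := G1.H440.esym_refl (m + 0 + 2 + k) 0 (mu X (Sum.inr v) - m - 1 / 2) (by omega)
        have e3 : -(mu X (Sum.inr v) - m - 1 / 2) - (((m + 0 + 2 + k : ℕ) : ℂ) - 1) =
            mu X (Sum.inr u) - k - 1 / 2 := by
          push_cast
          linear_combination -h5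
        rw [e3] at e2
        rw [e2]
        have e5 : ((-1 : ℂ)) ^ (k + 1) * (-1) ^ (m + 0 + 2 + k - 0) = (-1) ^ (m + 1) := by
          rw [← pow_add]
          have : k + 1 + (m + 0 + 2 + k - 0) = (m + 1) + 2 * (k + 1) := by omega
          rw [this, pow_add, pow_mul]
          simp
        rw [← mul_assoc ((-1 : ℂ) ^ (k + 1)), e5]
    · simp only [if_neg hi]

end Vale.Agent.P269.G2.H980
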