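import Vale.Agent.P269.G1I.All
import Vale.Agent.P269.G1I.H440.SrBasic
import Vale.Agent.P269.G2I.BSpec1
import Vale.Agent.P269.G2I.H980.Basic
import Vale.Agent.P269.G2I.T.H521_SrB

/-!
# Series of correlators on the big phase space: elementary rules, even dimension
-/

namespace Vale.Agent.P269.G2.H980.DB3

open Finset.HasAntidiagonal (antidiagonal)
open Vale.Agent.P269.CI
open Vale.Agent.P269.G1 (toSer Sym lst shf)
open Vale.Agent.P269.G1.H440 (dlt sym_dlt toSer_dlt shf_dlt toSer_zero' toSer_sum toSer_entries)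

variable {X : CompleteIntersection} {n : ℕ} (E : Fam X n) {F : ℕ → ℕ → List (Ins X) → ℂ}

theorem sr_congr {A B : ℕ → List (Ins X) → ℂ}
    (h : ∀ d (L : List (Fin n)), A d (L.map E.e) = B d (L.map E.e)) :
    sr E A = sr E B := by
  unfold sr
  congr 1
  funext L
  ext d
  simpa using h d L

theorem sr_add (A B : ℕ → List (Ins X) → ℂ) :
    sr E (fun d L => A d L + B d L) = sr E A + sr E B := by
  unfold sr
  rw [← G1.H598.toSer_add']
  congr 1

theorem sr_zero : sr E (fun _ _ => 0) = 0 := by
  funext α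
  change ((∏ i, (α i).factorial : ℕ) : ℚ)⁻¹ • (PowerSeries.mk fun _ => (0 : ℂ)) = 0
  have : (PowerSeries.mk fun _ => (0 : ℂ)) = 0 := by
    ext; simp
  rw [this, smul_zero]

theorem smul_RB (c : ℂ) (f : RB n) : c • f = cb n c * f := by
  ext m d
  rw [cb, MvPowerSeries.coeff_C_mul, PowerSeries.coeff_C_mul]
  rfl

theorem cb_mul (a b : ℂ) : cb n (a * b) = cb n a * cb n b := by
  simp only [cb, map_mul]

theorem cb_add (a b : ℂ) : cb n (a + b) = cb n a + cb n b := by
  simp only [cb, map_add]

theorem cb_zero : cb n 0 = 0 := by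
  simp only [cb, map_zero]

theorem cb_one : cb n 1 = 1 := by
  simp only [cb, map_one]

theorem cb_sum {ι : Type*} (s : Finset ι) (f : ι → ℂ) :
    cb n (∑ i ∈ s, f i) = ∑ i ∈ s, cb n (f i) := by
  simp only [cb, map_sum]

theorem sr_smul (c : ℂ) (A : ℕ → List (Ins X) → ℂ) :
    sr E (fun d L => c * A d L) = c • sr E A := by
  funext α
  change ((∏ i, (α i).factorial : ℕ) : ℚ)⁻¹ • (PowerSeries.mk fun d => c * A d _) =
    c • (((∏ i, (α i).factorial : ℕ) : ℚ)⁻¹ • (PowerSeries.mk fun d => A d _))
  rw [smul_comm]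
  congr 1

theorem sr_sum {σ : Type*} (s : Finset σ) (A : σ → ℕ → List (Ins X) → ℂ) :
    sr E (fun d L => ∑ x ∈ s, A x d L) = ∑ x ∈ s, sr E (A x) := by
  classical
  induction s using Finset.induction_on with
  | empty => simpa using sr_zero E
  | insert a s ha ih =>
    rw [Finset.sum_insert ha, ← ih, ← sr_add]
    exact sr_congr E fun d L => Finset.sum_insert ha

/-- the constant series -/
theorem sr_const (c : ℂ) :
    sr E (fun d L => if d = 0 ∧ L = [] then c else 0) = cb n c := by
  unfold cb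
  ext α m
  change (PowerSeries.coeff m) ((((∏ i, (α i).factorial : ℕ) : ℚ)⁻¹ •
    (PowerSeries.mk fun d => if d = 0 ∧ (lst α).map E.e = [] then c else 0) :
      PowerSeries ℂ)) = _
  rw [MvPowerSeries.coeff_C]
  by_cases hα : α = 0
  · subst hα
    rw [if_pos rfl, G1.H598.lst_zero]
    simp [PowerSeries.coeff_C]
  · rw [if_neg hα]
    have : lst α ≠ [] := by
      intro h
      apply hα
      ext j
      have := G1.H598.count_lst α j
      rw [h] at this
      simpa using this.symm
    simp [this]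

theorem srcor_swap (hF : IsGW X F) (he : Even X.dim) (g : ℕ) (P Q : List (Ins X)) (x y : Ins X) :
    sr E (cor F g (P ++ x :: y :: Q)) = sr E (cor F g (P ++ y :: x :: Q)) := by
  refine sr_congr E fun d L => ?_
  have h1 := hF.symm g d P (Q ++ L.map E.e) x y
  rw [sgn_even he, one_mul] at h1
  simpa [cor] using h1

/-- topological recursion in genus zero -/
theorem trr_sr (hF : IsGW X F) (he : Even X.dim) (a : Ix X) (m : ℕ) (x y : Ins X) :
    sr E (cor F 0 [(a, m + 1), x, y]) = ∑ α, ∑ β, pairingInv X α β •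
      (sr E (cor F 0 [(β, 0), x, y]) * sr E (cor F 0 [(a, m), (α, 0)])) := by
  have h1 : ∀ α β, pairingInv X α β •
      (sr E (cor F 0 [(β, 0), x, y]) * sr E (cor F 0 [(a, m), (α, 0)])) =
      sr E (fun d L => pairingInv X α β *
        mulS (cor F 0 [(β, 0), x, y]) (cor F 0 [(a, m), (α, 0)]) d L) := by
    intro α β
    rw [← sr_mulS E he _ _ (symF_cor E hF he 0 _) (symF_cor E hF he 0 _), sr_smul]
  simp only [h1]
  simp only [← sr_sum]
  refine sr_congr E fun d L => ?_
  exact hF.trr d a m x y (L.map E.e)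

theorem SB_succ_apply (m : ℕ) (c b : Ix X) :
    SB E F (m + 1) c b = ∑ a : Ix X, pairingInv X a c • VB E F (b, m) (a, 0) := rfl

theorem SB_zero_apply (c b : Ix X) : SB E F 0 c b = if c = b then 1 else 0 := Matrix.one_apply

/-- three-point functions with one descendant -/
theorem trrS_big (hF : IsGW X F) (he : Even X.dim) (b : Ix X) (m : ℕ) (u v : Ins X) :
    sr E (cor F 0 [(b, m), u, v]) = ∑ i : Ix X,
      SB E F m i b * sr E (cor F 0 [(i, 0), u, v]) := by
  cases m with
  | zero =>
    simp only [SB_zero_apply]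
    rw [Finset.sum_eq_single b]
    · rw [if_pos rfl, one_mul]
    · intro j _ hj
      rw [if_neg hj, zero_mul]
    · simp
  | succ m =>
    rw [trr_sr E hF he b m u v, Finset.sum_comm]
    refine Finset.sum_congr rfl fun i _ => ?_
    rw [SB_succ_apply, Finset.sum_mul]
    refine Finset.sum_congr rfl fun a _ => ?_
    rw [smul_mul_assoc, mul_comm (VB E F (b, m) (a, 0))]
    rfl

end Vale.Agent.P269.G2.H980.DB3
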