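import Vale.Agent.P269.G1I.All
import Vale.Agent.P269.G1I.H980.VirAct
import Vale.Agent.P269.G2I.BSpec1
import Vale.Agent.P269.G2I.H980.Cs

/-!
# [DC1] the genus-one Virasoro coefficients at a general point of the big phase space
-/

namespace Vale.Agent.P269.G2.H980

open Finset.HasAntidiagonal (antidiagonal)
open Vale.Agent.P269.CI
open Vale.Agent.P269.G1 (toSer Sym lst shf qco)
open Vale.Agent.P269.G1.H598 (toSer_add' coeff_toSer lst_zero count_lst shf_congr shf_perm)
open Vale.Agent.P269.G1.H980 (toSer_zero' toSer_sum toSer_one' toSer_dlt dlt cZ_zero cZ_succ hkap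
  pot1 coeff_pot1 symF_pot1 vir_mk cf_eq)
open Vale.Agent.P269.H597 (coh Coh sh ev act tau pot coeff_pot genus0 sg lsg sh_cons sh_nil
  lsg_false ev_apply sg_false_left sg_false_right)
open Vale.Agent.P269.H597.Coh (cs zop Tan)

variable {X : CompleteIntersection} {n : ℕ} (E : Fam X n) {F : ℕ → ℕ → List (Ins X) → ℂ}

/-- the one-point functions -/
noncomputable def Ac (F : ℕ → ℕ → List (Ins X) → ℂ) (g : ℕ) (b : Ix X) (m : ℕ) : RB n :=
  sr E (cor F g [(b, m)])

theorem Ac_zero (b : Ix X) (m : ℕ) : Ac E F 0 b m = tS E fun M => pot F ((b, m) :: M) := rfl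

theorem Ac_one (b : Ix X) (m : ℕ) : Ac E F 1 b m = tS E fun M => pot1 F ((b, m) :: M) := rfl

theorem symT_pot (hF : IsGW X F) (he : Even X.dim) (x : Ins X) :
    symT E fun M => pot F (x :: M) := symT_cor E hF he 0 [x]

theorem symT_pot1 (hF : IsGW X F) (he : Even X.dim) (x : Ins X) :
    symT E fun M => pot1 F (x :: M) := symT_cor E hF he 1 [x]

theorem tS_shmul (he : Even X.dim) (G G' : List (Ins X) → PowerSeries ℂ) (h : symT E G)
    (h' : symT E G') :
    tS E (fun M => sh (DX X).ip (LinearMap.mul (PowerSeries ℂ) (PowerSeries ℂ)) M G G') =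
      tS E G * tS E G' := by
  rw [← tS_mul E G G' h h']
  unfold tS
  congr 1
  funext L
  exact sh_mul_amb E he L G G'

theorem tS_quad2 (he : Even X.dim) (k : ℕ) (G G' : List (Ins X) → PowerSeries ℂ)
    (h : ∀ x, symT E fun M => G (x :: M)) (h' : ∀ x, symT E fun M => G' (x :: M)) :
    tS E ((DX X).quad2 k G G') = ∑ m ∈ Finset.range k, ∑ i ∈ Finset.range (k - m),
      ∑ b, ∑ c, (∑ a, qco X (k + 1) m i a b c) • (tS E (fun M => G ((b, m) :: M)) *
        tS E (fun M => G' ((c, k - 1 - m - i) :: M))) := by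
  have h1 : (DX X).quad2 k G G' = fun L => ∑ m ∈ Finset.range k, ∑ i ∈ Finset.range (k - m),
      ∑ a, ∑ b, ∑ c, PowerSeries.C (qco X (k + 1) m i a b c) *
        sh (DX X).ip (LinearMap.mul (PowerSeries ℂ) (PowerSeries ℂ)) L (fun M => G ((b, m) :: M))
          (fun M => G' ((c, k - 1 - m - i) :: M)) := by
    funext L
    unfold Coh.quad2
    simp only [cf_eq]
  rw [h1]
  simp only [tS_sum, tS_smul]
  refine Finset.sum_congr rfl fun m _ => Finset.sum_congr rfl fun i _ => ?_
  rw [Finset.sum_comm]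
  refine Finset.sum_congr rfl fun b _ => ?_
  rw [Finset.sum_comm]
  refine Finset.sum_congr rfl fun c _ => ?_
  rw [Finset.sum_smul]
  refine Finset.sum_congr rfl fun a _ => ?_
  rw [tS_shmul E he _ _ (h _) (h' _)]

/-- the products, in the order in which they come from the vector field -/
noncomputable def Qp (F : ℕ → ℕ → List (Ins X) → ℂ) (k : ℕ) : RB n :=
  ∑ m ∈ Finset.range k, ∑ i ∈ Finset.range (k - m),
    ∑ b : Ix X, ∑ c : Ix X, (∑ a : Ix X, qco X (k + 1) m i a b c) •
        (Ac E F 1 b m * Ac E F 0 c (k - 1 - m - i))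

theorem quad_one (hF : IsGW X F) (he : Even X.dim) (k : ℕ) :
    tS E ((DX X).quad2 k (pot1 F) (pot F)) = Qp E F k :=
  tS_quad2 E he k _ _ (symT_pot1 E hF he) (symT_pot E hF he)

theorem quad_zero (hF : IsGW X F) (he : Even X.dim) (k : ℕ) :
    tS E ((DX X).quad2 k (pot F) (pot1 F)) = Qp E F k := by
  rw [tS_quad2 E he k _ _ (symT_pot E hF he) (symT_pot1 E hF he)]
  have e2 := G1.H980.sum_reflect (k + 1) (fun m i => ∑ b : Ix X, ∑ c : Ix X,
      (∑ a : Ix X, qco X (k + 1) m i a b c) • (Ac E F 0 b m * Ac E F 1 c (k - 1 - m - i)))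
  refine e2.trans ?_
  unfold Qp
  refine Finset.sum_congr rfl fun m hm => Finset.sum_congr rfl fun i hi => ?_
  rw [Finset.mem_range] at hm hi
  rw [Finset.sum_comm]
  refine Finset.sum_congr rfl fun b _ => Finset.sum_congr rfl fun c _ => ?_
  have h : m + i + 2 ≤ k + 1 := by omega
  have e : k - 1 - (k + 1 - 2 - m - i) - i = m := by omega
  have e' : k + 1 - 2 - m - i = k - 1 - m - i := rfl
  rw [qco_symm he (k + 1) m i h b c, e, e', mul_comm]

/-- the vector field of the momenta acting on the genus-one potential -/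
theorem act_mom (hF : IsGW X F) (he : Even X.dim) (k : ℕ) :
    tS E (act (DX X).ip (fun M => ∑ m ∈ Finset.range k, ∑ b, (DX X).qc (pot F) k m b M •
      (Finsupp.single (b, m) 1 : Ins X →₀ PowerSeries ℂ)) (pot1 F)) = Qp E F k := by
  have h2 : act (DX X).ip (fun M => ∑ m ∈ Finset.range k, ∑ b, (DX X).qc (pot F) k m b M •
      (Finsupp.single (b, m) 1 : Ins X →₀ PowerSeries ℂ)) (pot1 F) =
      fun L => ∑ m ∈ Finset.range k, ∑ b, sh (DX X).ip
        (LinearMap.mul (PowerSeries ℂ) (PowerSeries ℂ)) L ((DX X).qc (pot F) k m b)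
          (fun M => pot1 F ((b, m) :: M)) := by
    funext L
    rw [H597.act_csum]
    refine Finset.sum_congr rfl fun m _ => ?_
    rw [H597.act_csum]
    refine Finset.sum_congr rfl fun b _ => ?_
    have h3 : (fun M => (DX X).qc (pot F) k m b M •
        (Finsupp.single (b, m) 1 : Ins X →₀ PowerSeries ℂ)) =
        fun M => Finsupp.single (b, m) ((DX X).qc (pot F) k m b M) := by
      funext M; simp
    rw [h3, H597.act_single]
    unfold H597.mulK
    rw [H597.lsmul_eq_mul]
  rw [h2]
  simp only [tS_sum]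
  unfold Qp
  refine Finset.sum_congr rfl fun m _ => ?_
  have hq : ∀ b, symT E ((DX X).qc (pot F) k m b) := fun b L M h => qc_perm E hF he k m b h
  have h3 : ∀ b, tS E (fun L => sh (DX X).ip
        (LinearMap.mul (PowerSeries ℂ) (PowerSeries ℂ)) L ((DX X).qc (pot F) k m b)
          (fun M => pot1 F ((b, m) :: M))) = tS E ((DX X).qc (pot F) k m b) * Ac E F 1 b m :=
    fun b => tS_shmul E he _ _ (hq b) (symT_pot1 E hF he _)
  simp only [h3]
  rw [Finset.sum_comm]
  refine Finset.sum_congr rfl fun b _ => ?_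
  have h4 : tS E ((DX X).qc (pot F) k m b) = ∑ i ∈ Finset.range (k - m),
      ∑ c : Ix X, (∑ a : Ix X, qco X (k + 1) m i a b c) • Ac E F 0 c (k - 1 - m - i) := by
    have h5 : (DX X).qc (pot F) k m b = fun L => ∑ i ∈ Finset.range (k - m),
        ∑ a : Ix X, ∑ c : Ix X, PowerSeries.C (qco X (k + 1) m i a b c) *
            pot F ((c, k - 1 - m - i) :: L) := by
      funext L
      unfold Coh.qc
      refine Finset.sum_congr rfl fun i _ => ?_
      refine Finset.sum_congr rfl fun a _ => Finset.sum_congr rfl fun c _ => ?_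
      rw [← cf_eq]
      congr 1
      unfold Coh.cf
      have h6 : (DX X).sn a = 1 := by
        change H597.sg (PowerSeries ℂ) (par X a) (par X a) = 1
        rw [par_even he]
        rfl
      rw [h6, mul_one]
    rw [h5]
    simp only [tS_sum, tS_smul]
    refine Finset.sum_congr rfl fun i _ => ?_
    rw [Finset.sum_comm]
    refine Finset.sum_congr rfl fun c _ => ?_
    rw [Finset.sum_smul]
    rfl
  rw [h4, Finset.sum_mul]
  refine Finset.sum_congr rfl fun i _ => ?_
  rw [Finset.sum_mul]
  refine Finset.sum_congr rfl fun c _ => ?_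
  rw [smul_mul_assoc, mul_comm (Ac E F 0 _ _)]

theorem tS_cst : tS E (H597.cst (1 : PowerSeries ℂ)) = 1 := by
  rw [← toSer_one' (n := n) (K := PowerSeries ℂ), tS]
  congr 1
  funext L
  cases L <;> simp

/-- **[DC1]** `cB` is `cs` of `H597.State` restricted to the family; `N` large -/
theorem vir_act (hF : IsGW X F) (he : Even X.dim) (k N : ℕ)
    (hN : ∀ i, (E.e i).2 + k + 2 ≤ N) (hN2 : k + 3 ≤ N) :
    sr E (fun d L => virasoro X F (k + 1) 1 d L) =
      (∑ p ∈ Finset.range N, ∑ b, cB E F N k p b * sr E (cor F 1 [(b, p)])) +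
      cb n (1 / 2) * loopB E F k + (if k = 0 then cb n (coh X).kap else 0) := by
  -- the vector field
  have hA : tS E (act (DX X).ip (cs (DX X) (pot F) k).1 (pot1 F)) =
      ∑ p ∈ Finset.range N, ∑ b, cB E F N k p b * sr E (cor F 1 [(b, p)]) := by
    rw [tS_act E he N]
    · refine Finset.sum_congr rfl fun p _ => Finset.sum_congr rfl fun b _ => ?_
      rw [cs_tS E hF he N k (fun i => by have := hN i; omega) (by omega)]
      rfl
    · intro M b p hp
      refine cs_bound E (N - k - 2) ?_ ?_ k M b p ?_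
      · intro i
        have := hN i
        omega
      · omega
      · omega
    · intro b p
      exact symT_cs E hF he k _
    · intro b p
      exact symT_pot1 E hF he _
  have hB : tS E (act (DX X).ip (cs (DX X) (pot F) k).1 (pot1 F)) =
      tS E ((DX X).lin k (pot1 F)) + Qp E F k := by
    rw [← act_mom E hF he k, ← tS_add]
    refine tS_congr E fun L => ?_
    have h3 : (cs (DX X) (pot F) k).1 = fun M => (DX X).Aop k (tau ((DX X).one, 1) M) +
      ∑ m ∈ Finset.range k, ∑ b, (DX X).qc (pot F) k m b M • Finsupp.single (b, m) 1 := by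
      funext M
      exact Coh.cs_decomp (g0 hF) k M
    rw [h3, H597.act_cadd]
    congr 1
    exact H597.act_tau (DX X).ip ((DX X).one, 1) Coh.ip_one (Coh.evenOp_Aop (D := DX X) k)
      (pot1 F) (symF_pot1 hF) _
  have hC : sr E (fun d L => virasoro X F (k + 1) 1 d L) = tS E ((DX X).lin k (pot1 F)) +
      (1 / 2 : ℂ) • (Qp E F k + Qp E F k + loopB E F k) +
      (if k = 0 then cb n (coh X).kap else 0) := by
    have h2 : (fun L : List (Ins X) => PowerSeries.mk fun d => virasoro X F (k + 1) 1 d L) =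
      fun M => (DX X).lin k (pot1 F) M +
      PowerSeries.C (1 / 2) * ((DX X).quad2 k (pot F) (pot1 F) M +
        (DX X).quad2 k (pot1 F) (pot F) M +
        PowerSeries.mk fun d => (coh X).loop (F 0 d) k M) +
      (if k = 0 then PowerSeries.C (coh X).kap * H597.cst 1 M else 0) := by
      funext M
      exact vir_mk k M
    rw [sr_eq, h2, tS_add, tS_add, tS_smul, tS_add, tS_add, quad_zero E hF he, quad_one E hF he]
    congr 1
    by_cases hk : k = 0
    · simp only [hk, if_true]
      rw [tS_smul, tS_cst, cb_smul, mul_one]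
    · simp only [hk, if_false]
      exact tS_zero E
  rw [hC, ← hA, hB, smul_add, ← cb_smul, ← two_smul ℂ (Qp E F k), smul_smul]
  norm_num
  rw [add_assoc]

end Vale.Agent.P269.G2.H980
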