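import Vale.Agent.P269.G1I.All
import Vale.Agent.P269.G2I.BSpec1
import Vale.Agent.P269.G2I.H980.Basic
import Vale.Agent.P269.G2I.H980.X1
import Vale.Agent.P269.G2I.Model1
import Vale.Agent.P269.G2I.Model2
import Vale.Agent.P269.G2I.Model3
import Vale.Agent.P269.G2I.XSpec1

/-!
# [Yg] the characteristic polynomial and `psi`
-/

namespace Vale.Agent.P269.G2.H980

open Finset.HasAntidiagonal (antidiagonal)
open Vale.Agent.P269.CI
open Vale.Agent.P269.G1 (toSer Frob)
open Vale.Agent.P269.H597 (coh)

variable {X : CompleteIntersection} {F : ℕ → ℕ → List (Ins X) → ℂ}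

/-- the pairing as a matrix -/
noncomputable def GM (X : CompleteIntersection) : Matrix (Ix X) (Ix X) (RM X) :=
  Matrix.of fun a b => cb (nx X) (pairing X a b)

theorem cb_one' (n : ℕ) : cb n 1 = 1 := by simp [cb]

theorem cb_zero' (n : ℕ) : cb n 0 = 0 := by simp [cb]

theorem cb_mul' (n : ℕ) (a b : ℂ) : cb n a * cb n b = cb n (a * b) := by simp [cb]

theorem cb_sum' {σ : Type*} (n : ℕ) (s : Finset σ) (f : σ → ℂ) :
    ∑ x ∈ s, cb n (f x) = cb n (∑ x ∈ s, f x) := by simp [cb]

theorem cb_smul' (n : ℕ) (c : ℂ) (f : RB n) : c • f = cb n c * f := by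
  ext α m
  rw [cb, MvPowerSeries.coeff_C_mul, PowerSeries.coeff_C_mul]
  rfl

theorem det_GM (X : CompleteIntersection) : (GM X).det ≠ 0 := by
  have h : GM X * Matrix.of (fun a b => cb (nx X) (pairingInv X a b)) = 1 := by
    ext1 a c
    rw [Matrix.mul_apply, Matrix.one_apply]
    have h2 := (coh X).eta_inv a c
    change ∑ b, cb (nx X) (pairing X a b) * cb (nx X) (pairingInv X b c) = _
    simp only [cb_mul', cb_sum']
    change ∑ b, pairing X a b * pairingInv X b c = _ at h2
    rw [h2]
    split_ifs
    · exact cb_one' _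
    · exact cb_zero' _
  intro h0
  have h3 := congrArg Matrix.det h
  rw [Matrix.det_mul, h0, zero_mul, Matrix.det_one] at h3
  exact zero_ne_one h3

/-- three-point functions are symmetric -/
theorem T_symm (hF : IsGW X F) (he : Even X.dim) {n : ℕ} (E : Fam X n) (j a b : Ix X) :
    sr E (cor F 0 [(j, 0), (a, 0), (b, 0)]) = sr E (cor F 0 [(j, 0), (b, 0), (a, 0)]) := by
  unfold sr
  congr 1
  funext L
  ext d
  rw [PowerSeries.coeff_mk, PowerSeries.coeff_mk]
  have h := hF.symm 0 d [(j, 0)] (L.map E.e) (a, 0) (b, 0)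
  rw [sgn_even he, one_mul] at h
  exact h

theorem mat_EM (hF : IsGW X F) (he : Even X.dim) (c b : Ix X) :
    QA.mat _ (EM hF he) c b = ∑ l : Ix X, cb (nx X) (pairingInv X l c) *
      ∑ j : Ix X, EM hF he j * sr (E0 X) (cor F 0 [(j, 0), (b, 0), (l, 0)]) := by
  rw [QA.mat_apply]
  change ∑ j, EM hF he j * ∑ l : Ix X, pairingInv X l c •
    sr (E0 X) (cor F 0 [(j, 0), (b, 0), (l, 0)]) = _
  simp only [Finset.mul_sum, cb_smul']
  rw [Finset.sum_comm]
  refine Finset.sum_congr rfl fun l _ => Finset.sum_congr rfl fun j _ => ?_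
  ring

theorem GM_mul (hF : IsGW X F) (he : Even X.dim) :
    GM X * QA.mat _ (EM hF he) = (QA.mat _ (EM hF he)).transpose * GM X := by
  ext1 a b
  rw [Matrix.mul_apply, Matrix.mul_apply]
  simp only [Matrix.transpose_apply, mat_EM]
  set T : Ix X → Ix X → RM X := fun b l =>
    ∑ j : Ix X, EM hF he j * sr (E0 X) (cor F 0 [(j, 0), (b, 0), (l, 0)]) with hT
  have hs : ∀ x y, T x y = T y x := by
    intro x y
    rw [hT]
    exact Finset.sum_congr rfl fun j _ => by rw [T_symm hF he]
  have e1 : ∑ j, GM X a j * ∑ l, cb (nx X) (pairingInv X l j) * T b l = T b a := by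
    simp only [Finset.mul_sum]
    rw [Finset.sum_comm]
    have e2 : ∀ l, ∑ j, GM X a j * (cb (nx X) (pairingInv X l j) * T b l) =
        if a = l then T b l else 0 := by
      intro l
      have h2 := (coh X).eta_inv a l
      change ∑ b, pairing X a b * pairingInv X b l = _ at h2
      have h3 : ∀ j, GM X a j * (cb (nx X) (pairingInv X l j) * T b l) =
          cb (nx X) (pairing X a j * pairingInv X j l) * T b l := by
        intro j
        change cb (nx X) (pairing X a j) * _ = _
        rw [← mul_assoc, cb_mul', pairingInv_symm he l j]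
      simp only [h3]
      rw [← Finset.sum_mul, cb_sum', h2]
      split_ifs
      · rw [cb_one', one_mul]
      · rw [cb_zero', zero_mul]
    simp only [e2]
    simp
  have e3 : ∑ j, (∑ l, cb (nx X) (pairingInv X l j) * T a l) * GM X j b = T a b := by
    simp only [Finset.sum_mul]
    rw [Finset.sum_comm]
    have e2 : ∀ l, ∑ j, cb (nx X) (pairingInv X l j) * T a l * GM X j b =
        if l = b then T a l else 0 := by
      intro l
      have h2 := (coh X).eta_inv' l b
      change ∑ b', pairingInv X l b' * pairing X b' b = _ at h2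
      have h3 : ∀ j, cb (nx X) (pairingInv X l j) * T a l * GM X j b =
          cb (nx X) (pairingInv X l j * pairing X j b) * T a l := by
        intro j
        change _ * cb (nx X) (pairing X j b) = _
        rw [mul_right_comm, cb_mul']
      simp only [h3]
      rw [← Finset.sum_mul, cb_sum', h2]
      split_ifs
      · rw [cb_one', one_mul]
      · rw [cb_zero', zero_mul]
    simp only [e2]
    simp
  exact e1.trans ((hs b a).trans e3.symm)

theorem GM_mu (X : CompleteIntersection) :
    GM X * muB X (nx X) = - ((muB X (nx X)).transpose * GM X) := by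
  ext1 a b
  rw [muB, Matrix.diagonal_transpose, Matrix.neg_apply, Matrix.mul_diagonal,
    Matrix.diagonal_mul]
  change cb (nx X) (pairing X a b) * cb (nx X) (mu X b) =
    - (cb (nx X) (mu X a) * cb (nx X) (pairing X a b))
  by_cases h : pairing X a b = 0
  · rw [h, cb_zero', zero_mul, mul_zero, neg_zero]
  · have h2 : mu X a + mu X b = 0 := (coh X).eta_mu a b h
    rw [cb_mul', cb_mul', eq_neg_iff_add_eq_zero]
    have h3 : pairing X a b * mu X b + mu X a * pairing X a b = 0 := by
      linear_combination (pairing X a b) * h2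
    have h4 : cb (nx X) (pairing X a b * mu X b) + cb (nx X) (mu X a * pairing X a b) =
        cb (nx X) (pairing X a b * mu X b + mu X a * pairing X a b) := by simp [cb]
    rw [h4, h3, cb_zero']

instance (X : CompleteIntersection) : IsDomain (RM X) := NoZeroDivisors.to_isDomain _

theorem psi_eq' (hF : IsGW X F) (he : Even X.dim) (n : ℕ) : (frob hF he).psi n =
    ∑ e ∈ antidiagonal n, if e.1 = 0 then 0 else QA.mat _ (EM hF he) ^ (e.1 - 1) *
      muB X (nx X) * QA.mat _ (EM hF he) ^ e.2 := by
  unfold Frob.psi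
  refine Finset.sum_congr rfl fun e _ => ?_
  rw [← map_pow, ← map_pow]
  rfl

/-- **[Yg]** from `H980.matrix_skew`: the pairing is symmetric and invariant, `μ` is skew -/
theorem chi_psi (hF : IsGW X F) (he : Even X.dim) :
    (chi hF he).sum (fun n c => c • (frob hF he).psi n) = 0 := by
  have : CharZero (RM X) := algebraRat.charZero _
  have h := matrix_skew (GM X) (QA.mat _ (EM hF he)) (muB X (nx X)) (det_GM X)
    (GM_mul hF he) (GM_mu X)
  refine Eq.trans ?_ h
  rw [Polynomial.sum_def, Polynomial.sum_def, chi]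
  refine Finset.sum_congr rfl fun n _ => ?_
  rw [psi_eq']

end Vale.Agent.P269.G2.H980
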