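import Vale.Agent.P269.G1I.All
import Vale.Agent.P269.G2I.BSpec1
import Vale.Agent.P269.G2I.H980.X2c
import Vale.Agent.P269.G2I.Model1
import Vale.Agent.P269.G2I.Model2
import Vale.Agent.P269.G2I.T.H333_YC
import Vale.Agent.P269.G2I.T.H333_YD
import Vale.Agent.P269.G2I.XSpec1

/-!
# [Yk] the characteristic polynomial of the Euler field at the ambient points
-/

namespace Vale.Agent.P269.G2.H980

open Finset.HasAntidiagonal (antidiagonal)
open Polynomial (aeval)
open Vale.Agent.P269.CI
open Vale.Agent.P269.G1 (RR ser cst lamc Eu lam AA cq)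
open Vale.Agent.P269.G2.H333 (ev0)
open Vale.Agent.P269.G2.H984 (RF rhoc dP)

variable {X : CompleteIntersection} {F : ℕ → ℕ → List (Ins X) → ℂ}

/-- restriction to the ambient points -/
noncomputable def fe (X : CompleteIntersection) : RM X →+* RR X :=
  (ev0 (ι := Fin (X.dim + 1)) (κ := X.Prim) (A := PowerSeries ℂ)).comp (phi X)

theorem fe_mat (hF : IsGW X F) (he : Even X.dim) (h1 : IsGenusOne F) (c b : Ix X) :
    fe X (QA.mat _ (EM hF he) c b) =
      ∑ k : Fin (X.dim + 1), Eu hF h1 k * ev0 (phi X (qc F (Sum.inl k) b c)) := by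
  rw [QA.mat_apply, map_sum, Fintype.sum_sum_type]
  have h2 : ∑ v : X.Prim, fe X (EM hF he (Sum.inr v) * (consts hF he).c (Sum.inr v) b c) = 0 := by
    refine Finset.sum_eq_zero fun v _ => ?_
    rw [map_mul]
    have : fe X (EM hF he (Sum.inr v)) = 0 := ev0_EM_inr hF he v
    rw [this, zero_mul]
  rw [h2, add_zero]
  refine Finset.sum_congr rfl fun k _ => ?_
  rw [map_mul]
  have : fe X (EM hF he (Sum.inl k)) = Eu hF h1 k := ev0_EM_inl hF he h1 k
  rw [this]
  rfl

/-- the matrix of the multiplication by the Euler field, ambient part -/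
noncomputable def AE (hF : IsGW X F) (h1 : IsGenusOne F) :
    Matrix (Fin (X.dim + 1)) (Fin (X.dim + 1)) (RR X) :=
  Matrix.of fun i j => ∑ k, Eu hF h1 k * G1.qc F k j i

theorem AE_eq (hF : IsGW X F) (h1 : IsGenusOne F) :
    LinearMap.toMatrix (G1.QA.bas (G1.consts hF h1)) (G1.QA.bas (G1.consts hF h1))
      (Algebra.lmul (RR X) (AA hF h1) (Eu hF h1)) = AE hF h1 := by
  ext1 i j
  rw [LinearMap.toMatrix_apply]
  change (Eu hF h1 * G1.QA.bas (G1.consts hF h1) j : AA hF h1) i = _
  rw [G1.QA.mul_def, AE, Matrix.of_apply]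
  refine Finset.sum_congr rfl fun k _ => ?_
  rw [Finset.sum_eq_single j]
  · rw [G1.QA.bas_apply, if_pos rfl, mul_one]
    rfl
  · intro l _ hl
    rw [G1.QA.bas_apply, if_neg hl, mul_zero, zero_mul]
  · simp

/-- **[Yk]** from `H980.charpoly_block`, `H980.charpoly_eq`, `pow_basis` -/
theorem chi_ev0 (hF : IsGW X F) (he : Even X.dim) (h1 : IsGenusOne F) (hi : index X ≠ 0)
    (P : Polynomial (RR X)) (hm : P.Monic) (hd : P.natDegree = X.dim + 1)
    (hP : aeval (Eu hF h1) P = 0) (v : X.Prim) :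
    ((chi hF he).map (phi X)).map ev0 = P * (Polynomial.X -
      Polynomial.C ((lam hF h1 (Eu hF h1)) v)) ^ Fintype.card X.Prim := by
  obtain ⟨b, hb⟩ := G1.pow_basis hF h1 hi
  have : Module.Free (RR X) (AA hF h1) := Module.Free.of_basis b
  have : Module.Finite (RR X) (AA hF h1) := Module.Finite.of_basis b
  have e1 := charpoly_eq b (Eu hF h1) hb P hm hd hP
  have e2 : (AE hF h1).charpoly = P := by
    rw [← AE_eq, LinearMap.charpoly_toMatrix, e1]
  rw [Polynomial.map_map]
  have e3 := charpoly_block (fe X) (QA.mat _ (EM hF he)) (AE hF h1) ((lam hF h1 (Eu hF h1)) v)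
    (fun i j => by
      rw [fe_mat hF he h1, AE, Matrix.of_apply]
      exact Finset.sum_congr rfl fun k _ => by rw [ev0_qc_inl hF he])
    (fun i j => by
      rw [fe_mat hF he h1]
      exact Finset.sum_eq_zero fun k _ => by rw [ev0_qc_mix hF he h1, mul_zero])
    (fun i j => by
      rw [fe_mat hF he h1]
      by_cases h : i = j
      · subst h
        rw [if_pos rfl]
        change _ = ∑ k, Eu hF h1 k * lamc h1 k
        exact Finset.sum_congr rfl fun k _ => by rw [ev0_qc_two hF he h1, if_pos rfl]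
      · rw [if_neg h]
        exact Finset.sum_eq_zero fun k _ => by
          rw [ev0_qc_two hF he h1, if_neg (Ne.symm h), mul_zero])
  rw [e2] at e3
  exact e3

end Vale.Agent.P269.G2.H980
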