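import Vale.Agent.P269.G1I.All
import Vale.Agent.P269.G1I.H276.Pow
import Vale.Agent.P269.G1I.H410.Lamc
import Vale.Agent.P269.G2I.BSpec1
import Vale.Agent.P269.G2I.CSpec1
import Vale.Agent.P269.G2I.Model1
import Vale.Agent.P269.G2I.XSpec1

/-!
# [J4a] the coefficients `ρ_k` at the origin for cubic hypersurfaces
-/

namespace Vale.Agent.P269.G2.H980

open Finset.HasAntidiagonal (antidiagonal)
open Vale.Agent.P269.CI
open Vale.Agent.P269.G1 (RR ser cst lamc Eu lam AA cq muO)
open Vale.Agent.P269.G2.H333 (ev0)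
open Vale.Agent.P269.G2.H984 (RF rhoc dP aM)

variable {X : CompleteIntersection} {F : ℕ → ℕ → List (Ins X) → ℂ}

theorem cubic_index (hd : X.degs = [3]) : index X = (X.dim : ℤ) - 1 := by
  unfold index
  rw [hd]
  simp
  ring

theorem cubic_index' (hd : X.degs = [3]) : (index X : ℂ) = (X.dim : ℂ) - 1 := by
  rw [cubic_index hd]
  push_cast
  ring

/-- homogeneity of the multiplication by `h` at the origin -/
theorem qmul_wt (hF : IsGW X F) (d : ℕ) (i j : Fin (X.dim + 1))
    (h : PowerSeries.coeff d (qmul F i j) ≠ 0) : (j : ℤ) + index X * d = i + 1 := by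
  unfold qmul at h
  rw [Matrix.of_apply, map_sum] at h
  obtain ⟨k, _, hk⟩ := Finset.exists_ne_zero_of_sum_ne_zero h
  rw [PowerSeries.coeff_mul_C, PowerSeries.coeff_mk] at hk
  have h1 := left_ne_zero_of_mul hk
  have h2 := right_ne_zero_of_mul hk
  have h3 : (k : ℕ) + j = X.dim := by
    by_contra h4
    exact h2 (if_neg h4)
  have h4 := hF.grading_p 0 d _ h1
  simp only [List.map_cons, List.map_nil, List.sum_cons, List.sum_nil, hp, hpow, hcls] at h4
  push_cast at h4
  have h5 : (k : ℤ) + j = X.dim := by exact_mod_cast h3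
  linarith

theorem qpow_wt (hF : IsGW X F) (n d : ℕ) (k : Fin (X.dim + 1))
    (h : PowerSeries.coeff d (((qmul F) ^ n) 0 k) ≠ 0) : (k : ℤ) + index X * d = n := by
  induction n generalizing d k with
  | zero =>
    rw [pow_zero, Matrix.one_apply] at h
    by_cases hk : (0 : Fin (X.dim + 1)) = k
    · subst hk
      rw [if_pos rfl, PowerSeries.coeff_one] at h
      by_cases h0 : d = 0
      · subst h0
        simp
      · rw [if_neg h0] at h
        exact absurd rfl h
    · rw [if_neg hk, map_zero] at h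
      exact absurd rfl h
  | succ n ih =>
    rw [pow_succ, Matrix.mul_apply, map_sum] at h
    obtain ⟨j, _, hj⟩ := Finset.exists_ne_zero_of_sum_ne_zero h
    rw [PowerSeries.coeff_mul] at hj
    obtain ⟨⟨a, b⟩, hab, h2⟩ := Finset.exists_ne_zero_of_sum_ne_zero hj
    have h3 := ih a j (left_ne_zero_of_mul h2)
    have h4 := qmul_wt hF b j k (right_ne_zero_of_mul h2)
    rw [Finset.HasAntidiagonal.mem_antidiagonal] at hab
    have h5 : (a : ℤ) + b = d := by exact_mod_cast hab
    rw [← h5]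
    push_cast
    linarith

/-- the diagonal coefficients -/
theorem qpow_diag (hF : IsGW X F) (hi : 0 < index X) (k : Fin (X.dim + 1)) :
    ((qmul F) ^ (k : ℕ)) 0 k = 1 := by
  ext d
  rw [PowerSeries.coeff_one]
  by_cases h0 : d = 0
  · subst h0
    rw [if_pos rfl, PowerSeries.coeff_zero_eq_constantCoeff]
    have h : PowerSeries.constantCoeff (((qmul F) ^ (k : ℕ)) 0 k) =
      (((qmul F) ^ (k : ℕ)).map (PowerSeries.constantCoeff (R := ℂ))) 0 k := rfl
    rw [h, Matrix.map_pow, G1.H276.cc_qmul hF, G1.H276.shN_pow, if_pos rfl]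
  · rw [if_neg h0]
    by_contra h
    have h2 := qpow_wt hF k d k h
    have h3 : index X * d = 0 := by linarith
    rcases mul_eq_zero.mp h3 with h4 | h4
    · omega
    · exact h0 (by exact_mod_cast h4)

/-- powers below the diagonal -/
theorem qpow_lt (hF : IsGW X F) (hi : 0 < index X) (n : ℕ) (k : Fin (X.dim + 1))
    (hn : n < (k : ℕ)) : ((qmul F) ^ n) 0 k = 0 := by
  ext d
  rw [map_zero]
  by_contra h
  have h2 := qpow_wt hF n d k h
  have h3 : 0 ≤ index X * d := by positivity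
  omega

/-- the eigenvalues on the primitive part at the origin -/
theorem og_lamc (hF : IsGW X F) (h1 : IsGenusOne F) (hX : 4 ≤ X.dim) (hd : X.degs = [3])
    (hc : IsCubic F) (v : X.Prim) (i : Fin (X.dim + 1)) : og (lamc h1 i) =
      if (i : ℕ) = 0 then 1 else if (i : ℕ) = X.dim - 1 then PowerSeries.C (-6) * PowerSeries.X
      else 0 := by
  have hi := i.isLt
  by_cases h0 : (i : ℕ) = 0
  · rw [if_pos h0]
    have : i = 0 := Fin.ext h0
    subst this
    rw [G1.H410.lamc_zero hF h1 v]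
    exact map_one _
  rw [if_neg h0]
  obtain ⟨w, hvw⟩ := G1.H410.exists_form_ne v
  have e1 : og (lamc h1 i) = PowerSeries.mk fun d => G1.H410.Lam h1 d [hpow X i] :=
    G1.H276.ev0_ser _
  have hty := X.form_hodge v w hvw
  have e2 : ∀ d, G1.H410.Lam h1 d [hpow X i] = (X.form v w)⁻¹ *
      F 0 d [(Sum.inr v, 0), (Sum.inr w, 0), hpow X i] := fun d =>
    G1.H410.Lam_eq h1 hvw d [hpow X i] (by
      intro x hx
      rw [List.mem_singleton] at hx
      exact ⟨i, by rw [hx]; rfl⟩)
  have e3 : ∀ d, F 0 d [(Sum.inr v, 0), (Sum.inr w, 0), hpow X i] ≠ 0 →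
      (i : ℤ) = ((X.dim : ℤ) - 1) * d := by
    intro d h
    have h4 := hF.grading_p 0 d _ h
    simp only [List.map_cons, List.map_nil, List.sum_cons, List.sum_nil, hp, hpow] at h4
    rw [cubic_index hd] at h4
    push_cast at h4
    have h5 : (X.hodgeP v : ℤ) + X.hodgeP w = X.dim := by exact_mod_cast hty
    linarith
  have hX' : (4 : ℤ) ≤ X.dim := by exact_mod_cast hX
  rw [e1]
  ext d
  rw [PowerSeries.coeff_mk, e2]
  by_cases hir : (i : ℕ) = X.dim - 1
  · rw [if_pos hir, PowerSeries.coeff_C_mul, PowerSeries.coeff_X]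
    have hir' : (i : ℤ) = (X.dim : ℤ) - 1 := by omega
    by_cases hd1 : d = 1
    · subst hd1
      rw [if_pos rfl, mul_one]
      have h6 := hc.two v w (G1.H276.i1 X) i le_rfl (by omega) (by
        change 1 + (i : ℕ) = X.dim
        omega)
      have h7 := G1.H410.move_left hF 0 1 (G1.H276.i1 X) [hpow X i]
        [(Sum.inr v, 0), (Sum.inr w, 0)] []
      simp only [List.nil_append, List.cons_append] at h7
      have h8 := hF.divisor 0 1 [(Sum.inr v, 0), (Sum.inr w, 0), hpow X i]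
      have h9 : lowerSum X (hmul X) (F 0 1) [(Sum.inr v, 0), (Sum.inr w, 0), hpow X i] = 0 := by
        unfold lowerSum
        apply Finset.sum_eq_zero
        intro j _
        rw [if_pos]
        have hj : ∀ x ∈ ([(Sum.inr v, 0), (Sum.inr w, 0), hpow X i] : List (Ins X)), x.2 = 0 := by
          intro x hx
          simp only [List.mem_cons, List.not_mem_nil, or_false] at hx
          rcases hx with rfl | rfl | rfl <;> rfl
        exact hj _ (List.get_mem _ _)
      have h10 : F 0 1 [(hcls X, 0), (Sum.inr v, 0), (Sum.inr w, 0), hpow X i] =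
          F 0 1 [(Sum.inr v, 0), (Sum.inr w, 0), hpow X i] := by
        rw [h8, h9]
        simp
      have h11 : F 0 1 [(Sum.inr v, 0), (Sum.inr w, 0), hpow X i] = -6 * X.form v w := by
        rw [← h6, ← h10]
        exact h7.symm
      rw [h11]
      field_simp
    · rw [if_neg hd1, mul_zero]
      by_contra h
      have h6 := e3 d (right_ne_zero_of_mul h)
      rw [hir'] at h6
      have h7 : ((X.dim : ℤ) - 1) * ((d : ℤ) - 1) = 0 := by linarith
      rcases mul_eq_zero.mp h7 with h8 | h8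
      · omega
      · exact hd1 (by omega)
  · rw [if_neg hir, map_zero]
    by_contra h
    have h6 := e3 d (right_ne_zero_of_mul h)
    rcases Nat.lt_trichotomy d 1 with h7 | h7 | h7
    · have : d = 0 := by omega
      subst this
      rw [Nat.cast_zero, mul_zero] at h6
      exact h0 (by exact_mod_cast h6)
    · subst h7
      omega
    · have h8 : (2 : ℤ) ≤ d := by exact_mod_cast h7
      have h9 : ((X.dim : ℤ) - 1) * 2 ≤ ((X.dim : ℤ) - 1) * d :=
        mul_le_mul_of_nonneg_left h8 (by omega)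
      omega

/-- the value at the origin of the eigenvalue on the primitive part -/
noncomputable def LL (hF : IsGW X F) (h1 : IsGenusOne F) (v : X.Prim) :
    AA hF h1 →+* PowerSeries ℂ :=
  ((MvPowerSeries.constantCoeff (σ := Fin (X.dim + 1)) (R := PowerSeries ℂ)).comp
    (Pi.evalRingHom (fun _ : X.Prim => RR X) v)).comp (lam hF h1).toRingHom

theorem LL_apply (hF : IsGW X F) (h1 : IsGenusOne F) (v : X.Prim) (x : AA hF h1) :
    LL hF h1 v x = ∑ i, og (x i) * og (lamc h1 i) := by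
  change og (∑ i, x i * lamc h1 i) = _
  unfold og
  rw [map_sum]
  exact Finset.sum_congr rfl fun i _ => map_mul _ _ _

theorem LL_Eu (hF : IsGW X F) (h1 : IsGenusOne F) (hX : 4 ≤ X.dim) (hd : X.degs = [3])
    (hc : IsCubic F) (v : X.Prim) : LL hF h1 v (Eu hF h1) = 0 := by
  rw [LL_apply]
  refine Finset.sum_eq_zero fun i _ => ?_
  rw [show og (Eu hF h1 i) = _ from G1.H276.ev0_Eu hF h1 i]
  by_cases h : i = G1.H276.i1 X
  · subst h
    have e1 : ((G1.H276.i1 X : Fin (X.dim + 1)) : ℕ) = 1 := rfl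
    rw [if_pos rfl, og_lamc hF h1 hX hd hc v, e1, if_neg one_ne_zero,
      if_neg (show ¬ 1 = X.dim - 1 by omega), mul_zero]
  · rw [if_neg h, zero_mul]

theorem dd_apply (hF : IsGW X F) (h1 : IsGenusOne F) (x : AA hF h1) (i : Fin (X.dim + 1)) :
    (G1.dd hF h1 x : AA hF h1) i = ((i : ℕ) : RR X) * x i := rfl

theorem og_mul (f g : RR X) : og (f * g) = og f * og g := map_mul _ _ _

theorem og_natCast (n : ℕ) : og ((n : ℕ) : RR X) = (n : PowerSeries ℂ) := map_natCast _ _

theorem LL_dd (hF : IsGW X F) (h1 : IsGenusOne F) (hX : 4 ≤ X.dim) (hd : X.degs = [3])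
    (hc : IsCubic F) (v : X.Prim) (n : ℕ) (hn : n + 1 ≤ X.dim) :
    LL hF h1 v (G1.dd hF h1 (Eu hF h1 ^ n)) =
      if n + 1 = X.dim then PowerSeries.C (-6 * ((X.dim : ℂ) - 1) ^ X.dim) * PowerSeries.X
      else 0 := by
  have hr : X.dim - 1 < X.dim + 1 := by omega
  have hi : 0 < index X := by rw [cubic_index hd]; omega
  rw [LL_apply, Finset.sum_eq_single (⟨X.dim - 1, hr⟩ : Fin (X.dim + 1))]
  · rw [og_lamc hF h1 hX hd hc v, if_neg (show ¬ X.dim - 1 = 0 by omega), if_pos rfl]
    rw [dd_apply, og_mul, og_natCast]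
    have e1 : og ((Eu hF h1 ^ n : AA hF h1) ⟨X.dim - 1, hr⟩) =
          (PowerSeries.C ((index X : ℂ) ^ n) * ((qmul F) ^ n) 0 ⟨X.dim - 1, hr⟩) :=
      G1.H276.ev0_pow hF h1 n _
    rw [e1]
    change ((X.dim - 1 : ℕ) : PowerSeries ℂ) * _ * _ = _
    by_cases hn1 : n + 1 = X.dim
    · rw [if_pos hn1]
      have hn2 : n = X.dim - 1 := by omega
      have e2 : ((qmul F) ^ n) 0 (⟨X.dim - 1, hr⟩ : Fin (X.dim + 1)) = 1 := by
        have := qpow_diag hF hi (⟨X.dim - 1, hr⟩ : Fin (X.dim + 1))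
        rw [hn2]
        exact this
      rw [e2, mul_one, cubic_index' hd]
      have e3 : ((X.dim - 1 : ℕ) : PowerSeries ℂ) = PowerSeries.C ((X.dim : ℂ) - 1) := by
        rw [← map_natCast (PowerSeries.C (R := ℂ))]
        congr 1
        rw [Nat.cast_sub (by omega)]
        simp
      rw [e3, ← mul_assoc, ← map_mul, ← map_mul]
      congr 2
      have e4 : ((X.dim : ℂ) - 1) ^ X.dim = ((X.dim : ℂ) - 1) ^ n * ((X.dim : ℂ) - 1) := by
        rw [← pow_succ, hn1]
      rw [e4]
      ring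
    · rw [if_neg hn1, qpow_lt hF hi n _ (by
        change n < X.dim - 1
        omega), mul_zero, mul_zero, zero_mul]
  · intro i _ hne
    have h2 : ¬ (i : ℕ) = X.dim - 1 := fun h => hne (Fin.ext h)
    rw [og_lamc hF h1 hX hd hc v]
    by_cases h0 : (i : ℕ) = 0
    · rw [dd_apply, og_mul, og_natCast, h0, Nat.cast_zero, zero_mul, zero_mul]
    · rw [if_neg h0, if_neg h2, mul_zero]
  · simp

/-- **[J4a]** -/
theorem og_rho (hF : IsGW X F) (h1 : IsGenusOne F) (hX : 4 ≤ X.dim) (hd : X.degs = [3])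
    (hc : IsCubic F) (k : ℕ) (hk : k ≤ X.dim) (v : X.Prim) : og (rhoc hF h1 k v) =
      if k = 0 then 0 else if k = 1 then PowerSeries.C (1 - (X.hodgeP v : ℂ)) else
      if k = X.dim then PowerSeries.C (-6 * ((X.dim : ℂ) - 1) ^ X.dim) * PowerSeries.X
      else 0 := by
  have hL := LL_Eu hF h1 hX hd hc v
  have hl : og ((lam hF h1 (Eu hF h1)) v) = 0 := hL
  have e0 : og (rhoc hF h1 k v) = og (1 - cst X (mu X (Sum.inr v))) * (k * og ((lam hF h1 (Eu hF h1)) v) ^ (k - 1)) +
      LL hF h1 v ((G1.frob hF h1).phi k) := by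
    unfold rhoc og
    rw [map_add, map_mul, map_mul, map_natCast, map_pow]
    rfl
  have e1 : LL hF h1 v ((G1.frob hF h1).phi k) =
      ∑ i ∈ Finset.range k, (0 : PowerSeries ℂ) ^ i *
        LL hF h1 v ((muO hF h1).1 (Eu hF h1 ^ (k - 1 - i))) := by
    rw [G2.H984.phi_eq, G2.H984.ph, map_sum]
    refine Finset.sum_congr rfl fun i _ => ?_
    rw [map_mul, map_pow, hL, mul_one]
  rw [e0, hl, e1]
  rcases k with _ | k
  · simp
  rw [if_neg (Nat.succ_ne_zero k), Finset.sum_range_succ']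
  have e2 : ∑ i ∈ Finset.range k, (0 : PowerSeries ℂ) ^ (i + 1) *
        LL hF h1 v ((muO hF h1).1 (Eu hF h1 ^ (k + 1 - 1 - (i + 1)))) = 0 :=
    Finset.sum_eq_zero fun i _ => by rw [zero_pow (Nat.succ_ne_zero i), zero_mul]
  rw [e2, zero_add, pow_zero, one_mul, Nat.add_sub_cancel, Nat.sub_zero]
  have e3 : LL hF h1 v ((muO hF h1).1 (Eu hF h1 ^ k)) =
      LL hF h1 v (G1.dd hF h1 (Eu hF h1 ^ k)) - PowerSeries.C ((X.dim : ℂ) / 2) * 0 ^ k := by
    have e4 : ((muO hF h1).1 (Eu hF h1 ^ k) : AA hF h1) = G1.dd hF h1 (Eu hF h1 ^ k) -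
        cst X ((X.dim : ℂ) / 2) • (Eu hF h1 ^ k : AA hF h1) := rfl
    rw [e4, map_sub]
    congr 1
    have e5 : (cst X ((X.dim : ℂ) / 2) • (Eu hF h1 ^ k : AA hF h1)) =
        algebraMap (RR X) (AA hF h1) (cst X ((X.dim : ℂ) / 2)) * Eu hF h1 ^ k :=
      Algebra.smul_def _ _
    rw [e5, map_mul, map_pow, hL]
    congr 1
    change og ((lam hF h1 (algebraMap (RR X) (AA hF h1) (cst X ((X.dim : ℂ) / 2)))) v) = _
    rw [AlgHom.commutes]
    change og (cst X ((X.dim : ℂ) / 2)) = _
    unfold og cst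
    rw [MvPowerSeries.constantCoeff_C]
  rw [e3]
  rcases k with _ | k
  · have e7 := LL_dd hF h1 hX hd hc v 0 (by omega)
    rw [if_neg (by omega)] at e7
    rw [if_pos rfl, e7]
    have e6 : og (1 - cst X (mu X (Sum.inr v))) = PowerSeries.C (1 - mu X (Sum.inr v)) := by
      unfold og cst
      rw [map_sub, map_one, MvPowerSeries.constantCoeff_C, map_sub, map_one]
    rw [e6]
    simp only [zero_add, Nat.cast_one, mul_one, zero_sub, pow_zero]
    rw [← sub_eq_add_neg, ← map_sub]
    congr 1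
    unfold mu hp
    ring
  · rw [if_neg (by omega), zero_pow (Nat.succ_ne_zero k), mul_zero, mul_zero, mul_zero, zero_add,
      sub_zero, LL_dd hF h1 hX hd hc v (k + 1) hk]

end Vale.Agent.P269.G2.H980
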