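import Vale.Agent.P269.G1I.All
import Vale.Agent.P269.G2I.BSpec1
import Vale.Agent.P269.G2I.CSpec1
import Vale.Agent.P269.G2I.H980.ChiEv
import Vale.Agent.P269.G2I.H980.ChiPsi
import Vale.Agent.P269.G2I.H980.OgRho
import Vale.Agent.P269.G2I.Model1
import Vale.Agent.P269.G2I.Model2
import Vale.Agent.P269.G2I.T.H333_YE
import Vale.Agent.P269.G2I.T.H598_OgEu
import Vale.Agent.P269.G2I.T.H598_OgTrace
import Vale.Agent.P269.G2I.T.H598_Ya
import Vale.Agent.P269.G2I.XSpec1

/-!
# [J2d] the quantum Euler class at the origin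
-/

namespace Vale.Agent.P269.G2.H980

open Finset.HasAntidiagonal (antidiagonal)
open Vale.Agent.P269.CI
open Vale.Agent.P269.G1 (RR ser cst lamc Eu lam AA cq muO toSer)
open Vale.Agent.P269.G2.H333 (ev0)
open Vale.Agent.P269.G2.H984 (RF rhoc dP aM)
open Vale.Agent.P269.H597 (coh)

variable {X : CompleteIntersection} {F : ℕ → ℕ → List (Ins X) → ℂ}

/-- three-point function -/
noncomputable def T3 (F : ℕ → ℕ → List (Ins X) → ℂ) (a b c : Ix X) : RM X :=
  sr (E0 X) (cor F 0 [(a, 0), (b, 0), (c, 0)])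

theorem T3_rot (hF : IsGW X F) (he : Even X.dim) (a b c : Ix X) : T3 F a b c = T3 F b c a :=
  H598.cor_perm hF he 0 (List.perm_append_singleton (a, 0) [(b, 0), (c, 0)]).symm

theorem qc_T3 (a b j : Ix X) : qc F a b j = ∑ l, cb (nx X) (pairingInv X l j) * T3 F a b l := by
  unfold qc
  exact Finset.sum_congr rfl fun l _ => cb_smul' _ _ _

theorem cas_apply (hF : IsGW X F) (he : Even X.dim) (j : Ix X) : cas hF he j =
    ∑ a, ∑ b, cb (nx X) (pairingInv X a b) * qc F a b j := by
  unfold cas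
  have e1 : (∑ a : Ix X, ∑ b : Ix X, cb (nx X) (pairingInv X a b) •
      (H521.be hF he a * H521.be hF he b) : AM hF he) j =
      ∑ a : Ix X, (∑ b : Ix X, cb (nx X) (pairingInv X a b) •
      (H521.be hF he a * H521.be hF he b) : AM hF he) j :=
    Finset.sum_apply (M := fun _ : Ix X => RM X) j Finset.univ
      (fun a => (∑ b : Ix X, cb (nx X) (pairingInv X a b) •
      (H521.be hF he a * H521.be hF he b) : AM hF he))
  rw [e1]
  refine Finset.sum_congr rfl fun a _ => ?_
  have e2 : (∑ b : Ix X, cb (nx X) (pairingInv X a b) •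
      (H521.be hF he a * H521.be hF he b) : AM hF he) j =
      ∑ b : Ix X, (cb (nx X) (pairingInv X a b) •
      (H521.be hF he a * H521.be hF he b) : AM hF he) j :=
    Finset.sum_apply (M := fun _ : Ix X => RM X) j Finset.univ
      (fun b => (cb (nx X) (pairingInv X a b) •
      (H521.be hF he a * H521.be hF he b) : AM hF he))
  rw [e2]
  refine Finset.sum_congr rfl fun b _ => ?_
  change cb (nx X) (pairingInv X a b) * (H521.be hF he a * H521.be hF he b : AM hF he) j = _
  rw [H521.mul_be]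
  rfl

/-- the covector of the quantum Euler class -/
theorem pair_cas (hF : IsGW X F) (he : Even X.dim) (i : Ix X) :
    ∑ j, cb (nx X) (pairing X i j) * cas hF he j =
      ∑ a, ∑ b, cb (nx X) (pairingInv X a b) * T3 F a b i := by
  have e2 : ∀ a b l, ∑ j, cb (nx X) (pairing X i j) * (cb (nx X) (pairingInv X l j) * T3 F a b l) =
      if i = l then T3 F a b l else 0 := by
    intro a b l
    have h2 := (coh X).eta_inv i l
    change ∑ b, pairing X i b * pairingInv X b l = _ at h2
    have h3 : ∀ j, cb (nx X) (pairing X i j) * (cb (nx X) (pairingInv X l j) * T3 F a b l) =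
        cb (nx X) (pairing X i j * pairingInv X j l) * T3 F a b l := by
      intro j
      rw [← mul_assoc, cb_mul', pairingInv_symm he l j]
    simp only [h3]
    rw [← Finset.sum_mul, cb_sum', h2]
    split_ifs
    · rw [cb_one', one_mul]
    · rw [cb_zero', zero_mul]
  simp only [cas_apply, qc_T3, Finset.mul_sum]
  rw [Finset.sum_comm]
  refine Finset.sum_congr rfl fun a _ => ?_
  rw [Finset.sum_comm]
  refine Finset.sum_congr rfl fun b _ => ?_
  rw [Finset.sum_comm]
  have e3 : ∀ l, ∑ j, cb (nx X) (pairing X i j) * (cb (nx X) (pairingInv X a b) *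
      (cb (nx X) (pairingInv X l j) * T3 F a b l)) =
      if i = l then cb (nx X) (pairingInv X a b) * T3 F a b l else 0 := by
    intro l
    have := e2 a b l
    have h4 : ∀ j, cb (nx X) (pairing X i j) * (cb (nx X) (pairingInv X a b) *
      (cb (nx X) (pairingInv X l j) * T3 F a b l)) = cb (nx X) (pairingInv X a b) *
        (cb (nx X) (pairing X i j) * (cb (nx X) (pairingInv X l j) * T3 F a b l)) := fun j => by
      ring
    simp only [h4]
    rw [← Finset.mul_sum, this, mul_ite, mul_zero]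
  simp only [e3]
  simp

theorem trace_cas (hF : IsGW X F) (he : Even X.dim) (z : AM hF he) :
    Matrix.trace (QA.mat (consts hF he) z) =
      ∑ i, z i * ∑ j, cb (nx X) (pairing X i j) * cas hF he j := by
  have e1 : Matrix.trace (QA.mat (consts hF he) z) = ∑ c, ∑ k, z k * qc F k c c := rfl
  rw [e1, Finset.sum_comm]
  refine Finset.sum_congr rfl fun i _ => ?_
  rw [← Finset.mul_sum, pair_cas]
  congr 1
  simp only [qc_T3]
  rw [Finset.sum_comm]
  refine Finset.sum_congr rfl fun a _ => Finset.sum_congr rfl fun b _ => ?_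
  rw [T3_rot hF he a b i, T3_rot hF he b i a]
  exact congrArg _ (T_symm hF he (E0 X) i b a)

theorem fe_cb (c : ℂ) : fe X (cb (nx X) c) = cst X c := by
  change ev0 (phi X (cb (nx X) c)) = cst X c
  have h1 : cb (nx X) c = c • (1 : RM X) := by rw [cb_smul', mul_one]
  rw [h1, phi_smul, map_one]
  unfold cst
  have h2 : (c • (1 : RF X)) = MvPowerSeries.C (PowerSeries.C c) := by
    ext α m
    rw [MvPowerSeries.coeff_C]
    change c * PowerSeries.coeff m (MvPowerSeries.coeff α (1 : RF X)) = _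
    rw [MvPowerSeries.coeff_one]
    split_ifs
    · rw [PowerSeries.coeff_one, PowerSeries.coeff_C]
      split_ifs <;> simp
    · simp
  rw [h2]
  exact H333.ev0_C _

/-- the ambient part of the quantum Euler class at the ambient points -/
noncomputable def casA (hF : IsGW X F) (he : Even X.dim) (h1 : IsGenusOne F) : AA hF h1 :=
  fun j => ev0 (phi X (cas hF he (Sum.inl j)))

theorem eta_casA (hF : IsGW X F) (he : Even X.dim) (h1 : IsGenusOne F) (n : ℕ) :
    ev0 (phi X (Matrix.trace (QA.mat (consts hF he) (EM hF he ^ n)))) =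
      G1.eta hF h1 (Eu hF h1 ^ n) (casA hF he h1) := by
  rw [trace_cas]
  change fe X _ = _
  rw [map_sum, Fintype.sum_sum_type]
  have e1 : ∑ b : X.Prim, fe X ((EM hF he ^ n : AM hF he) (Sum.inr b) *
      ∑ j, cb (nx X) (pairing X (Sum.inr b) j) * cas hF he j) = 0 := by
    refine Finset.sum_eq_zero fun b _ => ?_
    rw [map_mul]
    have : fe X ((EM hF he ^ n : AM hF he) (Sum.inr b)) = 0 := ev0_pow_inr hF he h1 n b
    rw [this, zero_mul]
  rw [e1, add_zero]
  change _ = ∑ i : Fin (X.dim + 1), ∑ j : Fin (X.dim + 1),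
    cst X (pairing X (Sum.inl i) (Sum.inl j)) * ((Eu hF h1 ^ n : AA hF h1) i * casA hF he h1 j)
  refine Finset.sum_congr rfl fun i _ => ?_
  rw [map_mul, map_sum, Fintype.sum_sum_type]
  have e2 : fe X ((EM hF he ^ n : AM hF he) (Sum.inl i)) = (Eu hF h1 ^ n : AA hF h1) i :=
    ev0_pow_inl hF he h1 n i
  have e3 : ∑ b : X.Prim, fe X (cb (nx X) (pairing X (Sum.inl i) (Sum.inr b)) *
      cas hF he (Sum.inr b)) = 0 := by
    refine Finset.sum_eq_zero fun b _ => ?_
    have : pairing X (Sum.inl i) (Sum.inr b) = 0 := rfl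
    rw [this, cb_zero', zero_mul, map_zero]
  rw [e2, e3, add_zero, Finset.mul_sum]
  refine Finset.sum_congr rfl fun j _ => ?_
  rw [map_mul, fe_cb]
  change _ * (_ * casA hF he h1 j) = _
  ring

theorem eta_one (hF : IsGW X F) (h1 : IsGenusOne F) (y : AA hF h1) :
    G1.eta hF h1 1 y = cst X (deg X) * y (Fin.last X.dim) := by
  change ∑ i : Fin (X.dim + 1), ∑ j : Fin (X.dim + 1),
    cst X (pairing X (Sum.inl i) (Sum.inl j)) * ((1 : AA hF h1) i * y j) = _
  rw [Finset.sum_eq_single 0, Finset.sum_eq_single (Fin.last X.dim)]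
  · have e1 : (1 : AA hF h1) 0 = 1 := by rw [G1.QA.one_def, if_pos rfl]
    have e2 : pairing X (Sum.inl 0) (Sum.inl (Fin.last X.dim)) = deg X := by
      change (if ((0 : Fin (X.dim + 1)) : ℕ) + ((Fin.last X.dim : Fin (X.dim + 1)) : ℕ) = X.dim
        then deg X else 0) = deg X
      rw [if_pos]
      simp
    rw [e1, e2, one_mul]
  · intro j _ hj
    have e2 : pairing X (Sum.inl 0) (Sum.inl j) = 0 := by
      change (if ((0 : Fin (X.dim + 1)) : ℕ) + (j : ℕ) = X.dim then deg X else 0) = 0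
      rw [if_neg]
      intro h
      apply hj
      ext
      simpa using h
    rw [e2]
    unfold cst
    rw [map_zero, map_zero, zero_mul]
  · simp
  · intro i _ hi
    have e1 : (1 : AA hF h1) i = 0 := by rw [G1.QA.one_def, if_neg hi]
    refine Finset.sum_eq_zero fun j _ => ?_
    rw [e1]
    ring
  · simp

theorem og_cst (c : ℂ) : og (cst X c) = PowerSeries.C c := by
  unfold og cst
  rw [MvPowerSeries.constantCoeff_C]

theorem og_sum {σ : Type*} (s : Finset σ) (f : σ → RR X) : og (∑ i ∈ s, f i) = ∑ i ∈ s, og (f i) :=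
  map_sum _ _ _

/-- **[J2d]** `η(cas, z) = tr (z *)` at the origin; `z = 1` and `z = E ^ ν` -/
theorem og_cas (hF : IsGW X F) (he : Even X.dim) (h1 : IsGenusOneFull F) (hX : 4 ≤ X.dim)
    (hd : X.degs = [3]) : ∃ x : Fin (X.dim + 1) → PowerSeries ℂ,
    (∀ j : Fin (X.dim + 1), og (ev0 (phi X (cas hF he (Sum.inl j)))) =
      ∑ k : Fin (X.dim + 1), x k * og ((Eu hF h1.toOne ^ (k : ℕ) : AA hF h1.toOne) j)) ∧
    x 1 = PowerSeries.C (-9 * (np X + 2) / ((X.dim : ℂ) - 1)) * PowerSeries.X ∧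
    x (Fin.last X.dim) =
      PowerSeries.C ((np X + X.dim + 1) / (3 * ((X.dim : ℂ) - 1) ^ X.dim)) := by
  have hi : index X ≠ 0 := by rw [cubic_index hd]; omega
  obtain ⟨b, hb⟩ := G1.pow_basis hF h1.toOne hi
  set c := casA hF he h1.toOne with hc
  set ξ : Fin (X.dim + 1) → RR X := fun k => b.repr c k with hξ
  have hcc : c = ∑ k, ξ k • (Eu hF h1.toOne ^ (k : ℕ) : AA hF h1.toOne) := by
    conv_lhs => rw [← b.sum_repr c]
    exact Finset.sum_congr rfl fun k _ => by rw [hb k]
  -- the pairing with the powers of `E`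
  have hη : ∀ n : ℕ, og (ev0 (phi X (Matrix.trace (QA.mat (consts hF he) (EM hF he ^ n))))) =
      ∑ k : Fin (X.dim + 1), og (ξ k) * (PowerSeries.C 3 *
        og ((Eu hF h1.toOne ^ (n + (k : ℕ)) : AA hF h1.toOne) (Fin.last X.dim))) := by
    intro n
    rw [eta_casA hF he h1.toOne, ← hc, hcc, map_sum, og_sum]
    refine Finset.sum_congr rfl fun k _ => ?_
    rw [map_smul, smul_eq_mul, og_mul]
    congr 1
    have e1 : (Eu hF h1.toOne ^ n : AA hF h1.toOne) = 1 * Eu hF h1.toOne ^ n := (one_mul _).symm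
    rw [e1, G1.eta_inv, ← pow_add, eta_one, og_mul, og_cst]
    congr 2
    unfold deg
    rw [hd]
    simp
  refine ⟨fun k => og (ξ k), ?_, ?_⟩
  · intro j
    have e1 : ev0 (phi X (cas hF he (Sum.inl j))) = c j := rfl
    rw [e1, hcc]
    have e2 : (∑ k, ξ k • (Eu hF h1.toOne ^ (k : ℕ) : AA hF h1.toOne) : AA hF h1.toOne) j =
        ∑ k, (ξ k • (Eu hF h1.toOne ^ (k : ℕ) : AA hF h1.toOne) : AA hF h1.toOne) j :=
      Finset.sum_apply (M := fun _ : Fin (X.dim + 1) => RR X) j Finset.univ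
        (fun k => (ξ k • (Eu hF h1.toOne ^ (k : ℕ) : AA hF h1.toOne) : AA hF h1.toOne))
    rw [e2, og_sum]
    refine Finset.sum_congr rfl fun k _ => ?_
    rw [G1.QA.smul_apply, og_mul]
  have hν : ((X.dim : ℂ) - 1) ≠ 0 := by
    intro h
    have h2 : (X.dim : ℂ) = ((1 : ℕ) : ℂ) := by
      rw [Nat.cast_one]
      linear_combination h
    have := Nat.cast_injective h2
    omega
  have e0 : (3 * ((X.dim : ℂ) - 1) ^ X.dim) ≠ 0 := mul_ne_zero (by norm_num) (pow_ne_zero _ hν)
  have e3 : PowerSeries.C (3 * ((X.dim : ℂ) - 1) ^ X.dim) *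
      PowerSeries.C ((3 * ((X.dim : ℂ) - 1) ^ X.dim)⁻¹) = (1 : PowerSeries ℂ) := by
    rw [← map_mul, mul_inv_cancel₀ e0]
    exact map_one _
  -- pairing with `1`
  have hlast : ∀ k : Fin (X.dim + 1), og ((Eu hF h1.toOne ^ (k : ℕ) : AA hF h1.toOne)
      (Fin.last X.dim)) = if k = Fin.last X.dim then PowerSeries.C (((X.dim : ℂ) - 1) ^ X.dim)
      else 0 := by
    intro k
    rw [og_Eu_last hF h1.toOne hX hd k (by omega)]
    by_cases h : k = Fin.last X.dim
    · rw [if_pos h, if_pos (by rw [h]; rfl)]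
    · rw [if_neg h, if_neg]
      intro h2
      exact h (Fin.ext h2)
  have hr : og (ξ (Fin.last X.dim)) =
      PowerSeries.C ((np X + X.dim + 1) / (3 * ((X.dim : ℂ) - 1) ^ X.dim)) := by
    have h0 := hη 0
    rw [pow_zero, map_one, Matrix.trace_one, map_natCast, map_natCast] at h0
    have e1 : ∑ k : Fin (X.dim + 1), og (ξ k) * (PowerSeries.C 3 *
        og ((Eu hF h1.toOne ^ (0 + (k : ℕ)) : AA hF h1.toOne) (Fin.last X.dim))) =
        og (ξ (Fin.last X.dim)) * (PowerSeries.C 3 * PowerSeries.C (((X.dim : ℂ) - 1) ^ X.dim)) := by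
      rw [Finset.sum_eq_single (Fin.last X.dim)]
      · rw [zero_add, hlast, if_pos rfl]
      · intro k _ hk
        rw [zero_add, hlast, if_neg hk, mul_zero, mul_zero]
      · simp
    rw [e1, og_natCast] at h0
    have e2 : ((Fintype.card (Ix X) : ℕ) : PowerSeries ℂ) = PowerSeries.C (np X + X.dim + 1) := by
      rw [← map_natCast (PowerSeries.C (R := ℂ))]
      congr 1
      unfold np
      rw [Fintype.card_sum, Fintype.card_fin]
      push_cast
      ring
    rw [e2, ← map_mul] at h0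
    have e4 := congrArg (fun z => z * PowerSeries.C ((3 * ((X.dim : ℂ) - 1) ^ X.dim)⁻¹)) h0
    rw [mul_assoc, e3, mul_one, ← map_mul] at e4
    rw [← e4, div_eq_mul_inv]
  refine ⟨?_, hr⟩
  -- pairing with `E ^ ν`
  have h0 := hη (X.dim - 1)
  rw [og_trace hF he h1.toOne hX hd] at h0
  have hv1 : ((1 : Fin (X.dim + 1)) : ℕ) = 1 := by
    rw [Fin.val_one', Nat.mod_eq_of_lt (by omega)]
  have hg : ∀ k : Fin (X.dim + 1), og (ξ k) * (PowerSeries.C 3 *
      og ((Eu hF h1.toOne ^ (X.dim - 1 + (k : ℕ)) : AA hF h1.toOne) (Fin.last X.dim))) =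
      (if k = 1 then og (ξ 1) * (PowerSeries.C 3 * PowerSeries.C (((X.dim : ℂ) - 1) ^ X.dim))
        else 0) +
      (if k = Fin.last X.dim then og (ξ (Fin.last X.dim)) * (PowerSeries.C 3 *
        (PowerSeries.C (27 * ((X.dim : ℂ) - 1) ^ (X.dim - 1)) * PowerSeries.X *
          PowerSeries.C (((X.dim : ℂ) - 1) ^ X.dim))) else 0) := by
    intro k
    have hk := k.isLt
    by_cases k1 : k = 1
    · subst k1
      have hne : ¬ (1 : Fin (X.dim + 1)) = Fin.last X.dim := by
        intro h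
        have h2 := congrArg Fin.val h
        rw [hv1, Fin.val_last] at h2
        omega
      rw [if_pos rfl, if_neg hne, add_zero, hv1, show X.dim - 1 + 1 = X.dim by omega,
        og_Eu_last hF h1.toOne hX hd X.dim le_rfl, if_pos rfl]
    · have k1' : ¬ (k : ℕ) = 1 := fun h => k1 (Fin.ext (h.trans hv1.symm))
      rw [if_neg k1, zero_add]
      by_cases k0 : (k : ℕ) = 0
      · have hne : ¬ k = Fin.last X.dim := by
          intro h
          have h2 := congrArg Fin.val h
          rw [k0, Fin.val_last] at h2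
          omega
        rw [if_neg hne, k0, add_zero, og_Eu_last hF h1.toOne hX hd (X.dim - 1) (by omega),
          if_neg (by omega), mul_zero, mul_zero]
      · rw [show X.dim - 1 + (k : ℕ) = ((k : ℕ) - 2) + X.dim + 1 by omega,
          og_Eu_rel hF h1.toOne hX hd, show (k : ℕ) - 2 + 2 = k by omega, hlast]
        by_cases kr : k = Fin.last X.dim
        · rw [if_pos kr, if_pos kr, kr]
        · rw [if_neg kr, if_neg kr, mul_zero, mul_zero, mul_zero]
  simp only [hg, Finset.sum_add_distrib, Finset.sum_ite_eq', Finset.mem_univ, if_true] at h0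
  rw [hr] at h0
  have e4 := congrArg (fun z => z * PowerSeries.C ((3 * ((X.dim : ℂ) - 1) ^ X.dim)⁻¹)) h0
  have e5 : og (ξ 1) * (PowerSeries.C 3 * PowerSeries.C (((X.dim : ℂ) - 1) ^ X.dim)) *
      PowerSeries.C ((3 * ((X.dim : ℂ) - 1) ^ X.dim)⁻¹) = og (ξ 1) := by
    rw [← map_mul, mul_assoc, e3, mul_one]
  rw [add_mul, e5] at e4
  have e6 : og (ξ 1) = (PowerSeries.C (27 * ((X.dim : ℂ) - 1) ^ X.dim) *
      PowerSeries.C ((3 * ((X.dim : ℂ) - 1) ^ X.dim)⁻¹) -
      PowerSeries.C ((np X + X.dim + 1) / (3 * ((X.dim : ℂ) - 1) ^ X.dim)) *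
        (PowerSeries.C 3 * (PowerSeries.C (27 * ((X.dim : ℂ) - 1) ^ (X.dim - 1)) *
          PowerSeries.C (((X.dim : ℂ) - 1) ^ X.dim))) *
        PowerSeries.C ((3 * ((X.dim : ℂ) - 1) ^ X.dim)⁻¹)) * PowerSeries.X := by
    linear_combination -e4
  change og (ξ 1) = _
  rw [e6]
  simp only [← map_mul, ← map_sub]
  congr 2
  have e7 : ((X.dim : ℂ) - 1) ^ X.dim = ((X.dim : ℂ) - 1) ^ (X.dim - 1) * ((X.dim : ℂ) - 1) := by
    rw [← pow_succ, show X.dim - 1 + 1 = X.dim by omega]
  have e8 : ((X.dim : ℂ) - 1) ^ (X.dim - 1) ≠ 0 := pow_ne_zero _ hν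
  rw [e7]
  field_simp
  ring

end Vale.Agent.P269.G2.H980
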